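import Vale.Agent.P235.LL.H844.Extra
import Vale.Agent.P235.R2.H802.PgMain

/-!
P235, planar graphs embed with distortion `O(log log n)` (helper888, row GENUS).  The planar
theorem through the most general rounds of the starting files: any number of rounds which delete
lanes (for example finitely many vertices), faces, or arbitrary sets of small distortion, leading to
graphs of bounded Euler genus.
-/

set_option autoImplicit false
set_option linter.all false

namespace Vale.Agent.P235.LL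

open SimpleGraph

/-- `SRounds P s g k j β G ℓ`: at most `k` rounds which delete a `LaneSet` with at most `s` lanes
(for example `s` vertices), at most `j` rounds which delete all vertices of one face of a rotation
system of Euler genus at most `g`, and rounds which delete, from a graph without a `K_r` minor, any
nonempty set `X` such that the metric restricted to `X` has distortion at most `B` (`B ≥ 1`; `r` and
`B` may vary, the sum of the numbers `(r + 2) ^ 3 * B` is at most `β`), lead to graphs of the class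
`P`.  After each round every component is replaced by a connected induced subgraph of `G` which
contains it. -/
inductive SRounds (P : ∀ (V : Type), SimpleGraph V → Prop) (s g : ℕ) :
    ℕ → ℕ → ℝ → ∀ {V : Type}, SimpleGraph V → (Sym2 V → ℝ) → Prop
  | leaf {k j : ℕ} {β : ℝ} {V : Type} {G : SimpleGraph V} {ℓ : Sym2 V → ℝ} :
      P V G → SRounds P s g k j β G ℓ
  | lanes {k j : ℕ} {β : ℝ} {V : Type} {G : SimpleGraph V} {ℓ : Sym2 V → ℝ} {X : Set V}
      {S : V → Set V} : X.Nonempty → Pg.LaneSet G ℓ s X → Pg.Parts G X S →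
      (∀ u, u ∉ X → SRounds P s g k j β (G.induce (S u)) (fun e => ℓ (e.map Subtype.val))) →
      SRounds P s g (k + 1) j β G ℓ
  | face {k j : ℕ} {β : ℝ} {V : Type} {G : SimpleGraph V} {ℓ : Sym2 V → ℝ}
      {σ : Equiv.Perm G.Dart} {d : G.Dart} {S : V → Set V} : SurfMap g G σ →
      Pg.Parts G (onFace σ d) S →
      (∀ u, u ∉ onFace σ d →
        SRounds P s g k j β (G.induce (S u)) (fun e => ℓ (e.map Subtype.val))) →
      SRounds P s g k (j + 1) β G ℓ
  | set {k j r : ℕ} {β B : ℝ} {V : Type} {G : SimpleGraph V} {ℓ : Sym2 V → ℝ} {X : Set V}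
      {S : V → Set V} : ¬ H134.IsMinor (⊤ : SimpleGraph (Fin r)) G → X.Nonempty → 1 ≤ B → 0 ≤ β →
      EmbedsL1 (fun u v : X => pathDist G ℓ u v) B → Pg.Parts G X S →
      (∀ u, u ∉ X → SRounds P s g k j β (G.induce (S u)) (fun e => ℓ (e.map Subtype.val))) →
      SRounds P s g k j (β + ((r : ℝ) + 2) ^ 3 * B) G ℓ

theorem pos_induce {V : Type} {G : SimpleGraph V} {ℓ : Sym2 V → ℝ}
    (hℓ : ∀ e ∈ G.edgeSet, 0 < ℓ e) (S : Set V) :
    ∀ e ∈ (G.induce S).edgeSet, 0 < (fun e : Sym2 S => ℓ (e.map Subtype.val)) e := by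
  intro e he
  induction e using Sym2.ind with
  | _ a b =>
    have h : G.Adj a b := by simpa using he
    simpa using hℓ s((a : V), (b : V)) h

/-- leaves of bounded distortion -/
theorem SRounds.toPg {P : ∀ (V : Type), SimpleGraph V → Prop} {Q : ℝ} {n : ℕ}
    (hPQ : ∀ (V : Type) [Finite V] (G : SimpleGraph V), G.Connected → Nat.card V ≤ n → P V G →
      DistortionLE G Q)
    {s g k j : ℕ} {β : ℝ} {V : Type} {G : SimpleGraph V} {ℓ : Sym2 V → ℝ}
    (h : SRounds P s g k j β G ℓ) : Finite V → G.Connected → (∀ e ∈ G.edgeSet, 0 < ℓ e) →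
      Nat.card V ≤ n → Pg.Rounds Q s g k j β G ℓ := by
  induction h with
  | leaf hP => exact fun _ hc hℓ hn => Pg.Rounds.leaf (hPQ _ _ hc hn hP _ hℓ)
  | lanes hX hL hS _ ih =>
    intro _ hc hℓ hn
    exact Pg.Rounds.lanes hX hL hS fun u hu =>
      ih u hu inferInstance (hS u hu).2 (pos_induce hℓ _) ((card_set_le _).trans hn)
  | face hσ hS _ ih =>
    intro _ hc hℓ hn
    exact Pg.Rounds.face hσ hS fun u hu =>
      ih u hu inferInstance (hS u hu).2 (pos_induce hℓ _) ((card_set_le _).trans hn)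
  | set hr hX hB hβ hE hS _ ih =>
    intro _ hc hℓ hn
    exact Pg.Rounds.set hr hX hB hβ hE hS fun u hu =>
      ih u hu inferInstance (hS u hu).2 (pos_induce hℓ _) ((card_set_le _).trans hn)

/-- **surfaces and rounds**: the planar theorem gives `O(log log n)` for all weighted graphs which
rounds of deletions reduce to Euler genus at most `q`, with the additive cost of the rounds -/
theorem rounds_surf (h : PL) : ∃ C : ℝ, 1 ≤ C ∧ ∀ (V : Type) [Finite V] (G : SimpleGraph V)
    (ℓ : Sym2 V → ℝ), G.Connected → (∀ e ∈ G.edgeSet, 0 < ℓ e) →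
    ∀ (q s g k j : ℕ) (β : ℝ), 0 ≤ β → SRounds (Surf q) s g k j β G ℓ →
      EmbedsL1 (pathDist G ℓ) (C * (Swp.LL (Nat.card V) + Real.log ((q : ℝ) + 2) +
        √(k : ℝ) * Real.log ((s : ℝ) + 2) + j * ((g : ℝ) + 1) + β)) := by
  obtain ⟨C, hC, hP⟩ := h
  obtain ⟨K, hK, hM⟩ := Pg.main
  refine ⟨K * (10000000 * C), by nlinarith, ?_⟩
  intro V _ G ℓ hc hℓ q s g k j β hβ hR
  have hL1 := Swp.LL_one (Nat.card V)
  have hlog : ∀ g : ℕ, 0 ≤ Real.log ((g : ℝ) + 2) := fun g =>
    Real.log_nonneg (by have : (0 : ℝ) ≤ g := Nat.cast_nonneg g; linarith)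
  have hCL : 1 ≤ C * Swp.LL (Nat.card V) := one_le_mul_of_one_le_of_one_le hC hL1
  have hlq := hlog q
  have hls := hlog s
  set Q : ℝ := 10000000 * (C * Swp.LL (Nat.card V) + Real.log ((q : ℝ) + 2)) with hQ
  have hQ1 : 1 ≤ Q := by rw [hQ]; nlinarith
  have hPg := hR.toPg (n := Nat.card V) (Q := Q)
    (fun W _ H hH hn hW => genus hC hP q _ W H hH hn hW) inferInstance hc hℓ le_rfl
  have h1 := (hM V G ℓ 1 hc hℓ le_rfl).2.2.2 Q β s g k j hQ1 hβ hPg
  refine Pg.up hℓ h1 ?_
  rw [mul_assoc K]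
  refine mul_le_mul_of_nonneg_left ?_ (by linarith)
  have hk : 0 ≤ √(k : ℝ) * Real.log ((s : ℝ) + 2) := mul_nonneg (Real.sqrt_nonneg _) hls
  have hj : 0 ≤ (j : ℝ) * ((g : ℝ) + 1) := by positivity
  have hC' : 1 ≤ 10000000 * C := by linarith
  have e1 : Q ≤ 10000000 * C * (Swp.LL (Nat.card V) + Real.log ((q : ℝ) + 2)) := by
    rw [hQ]
    have := mul_le_mul_of_nonneg_right hC hlq
    nlinarith
  have e2 : √(k : ℝ) * Real.log ((s : ℝ) + 2) + j * ((g : ℝ) + 1) + β ≤
      10000000 * C * (√(k : ℝ) * Real.log ((s : ℝ) + 2) + j * ((g : ℝ) + 1) + β) :=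
    le_mul_of_one_le_left (by linarith) hC'
  calc Q + √(k : ℝ) * Real.log ((s : ℝ) + 2) + j * ((g : ℝ) + 1) + β
      = Q + (√(k : ℝ) * Real.log ((s : ℝ) + 2) + j * ((g : ℝ) + 1) + β) := by ring
    _ ≤ 10000000 * C * (Swp.LL (Nat.card V) + Real.log ((q : ℝ) + 2)) +
      10000000 * C * (√(k : ℝ) * Real.log ((s : ℝ) + 2) + j * ((g : ℝ) + 1) + β) :=
        add_le_add e1 e2
    _ = _ := by ring

/-- **apices**: after deleting the set `X` the components have Euler genus at most `q` -/
theorem apex_surf (h : PL) : ∃ C : ℝ, 1 ≤ C ∧ ∀ (V : Type) [Finite V] (G : SimpleGraph V),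
    G.Connected → ∀ (q : ℕ) (X : Set V), X.Nonempty →
    (∀ u ∉ X, Surf q _ (G.induce (compSet G X u))) →
      DistortionLE G (C * (Swp.LL (Nat.card V) + Real.log ((q : ℝ) + 2) +
        Real.log ((X.ncard : ℝ) + 1))) := by
  obtain ⟨C, hC, hP⟩ := h
  obtain ⟨K, hK⟩ := H873.apex_log
  refine ⟨(|K| + 1) * (10000000 * C), by have := abs_nonneg K; nlinarith, ?_⟩
  intro V _ G hc q X hX hS
  have hL1 := Swp.LL_one (Nat.card V)
  have hlq : 0 ≤ Real.log ((q : ℝ) + 2) :=
    Real.log_nonneg (by have : (0 : ℝ) ≤ q := Nat.cast_nonneg q; linarith)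
  have hlx : 0 ≤ Real.log ((X.ncard : ℝ) + 1) :=
    Real.log_nonneg (by have : (0 : ℝ) ≤ (X.ncard : ℝ) := Nat.cast_nonneg _; linarith)
  have hCL : 1 ≤ C * Swp.LL (Nat.card V) := one_le_mul_of_one_le_of_one_le hC hL1
  have h1 := hK (10000000 * (C * Swp.LL (Nat.card V) + Real.log (q + 2))) (by nlinarith) V G hc X
    hX fun u hu => genus hC hP q _ _ _ (comp_connected hu) (card_set_le _) (hS u hu)
  refine h1.mono ?_
  have hKa := le_abs_self K
  have hKn := abs_nonneg K
  have hC' : 1 ≤ 10000000 * C := by linarith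
  have e1 : 10000000 * (C * Swp.LL (Nat.card V) + Real.log (q + 2)) + Real.log (X.ncard + 1) ≤
      10000000 * C * (Swp.LL (Nat.card V) + Real.log ((q : ℝ) + 2) +
        Real.log ((X.ncard : ℝ) + 1)) := by
    have t1 := mul_le_mul_of_nonneg_right hC hlq
    have t2 : Real.log ((X.ncard : ℝ) + 1) ≤ 10000000 * C * Real.log ((X.ncard : ℝ) + 1) :=
      le_mul_of_one_le_left hlx hC'
    nlinarith
  have e0 : 0 ≤ 10000000 * (C * Swp.LL (Nat.card V) + Real.log (q + 2)) +
      Real.log (X.ncard + 1) := by nlinarith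
  rw [mul_assoc (|K| + 1)]
  exact mul_le_mul (by linarith) e1 e0 (by linarith)

end Vale.Agent.P235.LL
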